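import Vale.Agent.P214.Bdl.B1

/-! Partial regularity of stationary integral varifolds, in all dimensions and codimensions. -/

open MeasureTheory Set
open scoped ENNReal

namespace Vale.Agent.Results.P214.IsolatedTangents

open Vale.Agent.P214

/-- Let `V` be any stationary integral `m`-varifold, `m ≥ 1`, in an open set `U` of a Euclidean
space `E`.
(1) The singular points all of whose blow-up planes are isolated values of the Gauss map form a
set of Hausdorff dimension at most `m - 1`.
(2) At `H^m`-almost every singular point `x`, the point `x` lies in the carrier and the tangent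
plane `T_x V` is an accumulation value of the Gauss map at `x`.
(3) If the Gauss map takes locally only finitely many values, then `dim Sing V ≤ m - 1`. -/
theorem result {E : Type*} [NormedAddCommGroup E] [InnerProductSpace ℝ E]
    [FiniteDimensional ℝ E] [MeasurableSpace E] [BorelSpace E]
    {m : ℕ} (hm : 1 ≤ m) {U : Set E} (hU : IsOpen U)
    (V : IntegralVarifold m U) (hV : V.IsStationary) :
    dimH {x ∈ V.sing | ∀ T, V.IsBlowupPlane x T → V.IsolatedAt x T} ≤ ((m - 1 : ℕ) : ℝ≥0∞) ∧
    μH[m] {x ∈ V.sing | ¬ (x ∈ V.carrier ∧ ¬ V.IsolatedAt x (V.tangent x))} = 0 ∧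
    ((∀ x ∈ U, V.FiniteGauss x) → dimH V.sing ≤ ((m - 1 : ℕ) : ℝ≥0∞)) := by
  refine ⟨V.dimH_sing hm hU hV, V.hausdorff_sing hU hV, fun hF => ?_⟩
  refine le_trans (dimH_mono fun x hx => ?_) (V.dimH_sing hm hU hV)
  exact ⟨hx, fun T _ => V.isolatedAt_of_finiteGauss (hF x hx.1.1) T⟩

end Vale.Agent.Results.P214.IsolatedTangents
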